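import Mathlib

/-!
# S0170: the motion-plan vocabulary (definitions only)

Verbatim from helper11's interface (team board, post 106), landed by helper25 so that the
modules written against it can be imported.  The names live in `Crest.Agent.Helper11`.

* `Move`: an elementary move, either a translation by `α` along the axis `j` (`κ = 0`) or a shear
  `x_j += κ (x_l - c)` (`α = 0`), acting inside the open box `inner` and resting outside the
  inflated box (`outer`).
* `Reach O P Q`: the configuration `Q` is reached from `P` by finitely many moves, each moving the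
  tracked points either along the move (inside `inner`) or not at all (inside `outer`).
-/

set_option autoImplicit false

namespace Crest.Agent.Helper11

abbrev E3 : Type := Fin 3 → ℝ

structure Move where
  j : Fin 3
  l : Fin 3
  hjl : j ≠ l
  α : ℚ
  κ : ℚ
  c : ℚ
  lo : Fin 3 → ℚ
  hi : Fin 3 → ℚ
  δ : ℚ
  hlohi : ∀ m, lo m < hi m
  hδ : 0 < δ
  hkind : κ = 0 ∨ α = 0

noncomputable def Move.map (M : Move) (y : E3) : E3 :=
  y + ((M.α : ℝ) + M.κ * (y M.l - M.c)) • Pi.single M.j 1

def Move.inner (M : Move) : Set E3 := {y | ∀ m, (M.lo m : ℝ) < y m ∧ y m < M.hi m}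

def Move.outer (M : Move) : Set E3 :=
  {y | ∃ m, y m < (M.lo m : ℝ) - M.δ ∨ (M.hi m : ℝ) + M.δ < y m}

inductive Reach {n : ℕ} (O : Fin n → Set E3) : (Fin n → E3 → E3) → (Fin n → E3 → E3) → Prop
  | refl (P : Fin n → E3 → E3) : Reach O P P
  | step (M : Move) (P Q R : Fin n → E3 → E3)
      (h : ∀ i, ∀ x ∈ O i, (P i x ∈ M.inner ∧ M.map (P i x) ∈ M.inner ∧ Q i x = M.map (P i x)) ∨
        (P i x ∈ M.outer ∧ Q i x = P i x))
      (rest : Reach O Q R) : Reach O P R

end Crest.Agent.Helper11
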