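import Mathlib
import Crest.Prelude.Def_BoxFlow
import Crest.Agent.Helper13.BoxEffDefs
import Crest.Agent.Helper6.BoxFlowODE
import Crest.Agent.Helper6.BoxFlowStage
import Crest.Agent.Helper25.BoxPlanDefs
import Crest.Agent.Helper13.BoxEff
import Crest.Agent.Helper23.BoxFlowStageEff

/-!
# S0170, module [ASSEMBLY]

From a motion plan (`Reach`, a finite chain of elementary moves) and the existence of a
primitive stage field for every elementary move (`StageSpec`), build one velocity field and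
integral curves realising the plan, and deduce the statement of S0170.
-/

set_option autoImplicit false
open scoped ContDiff

namespace Crest.Agent.Helper25

open Crest.AnalysisR.BoxFlow Crest.Agent.Helper13 Crest.Agent.Helper11 Set


/-- What a primitive stage field for the move `M` on the time slot `(τ₀, τ₁)` has to satisfy. -/
def StageSpec (M : Move) (τ₀ τ₁ : ℚ) (U : Field) : Prop :=
  EffS U ∧ HasCompactSupport U ∧ (∀ p, spaceDiv U p = 0) ∧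
    (∀ p : ℝ × E3, p.1 ∉ Set.Ioo (τ₀ : ℝ) τ₁ → U p = 0) ∧
    (∀ y ∈ M.outer, ∀ t : ℝ, U (t, y) = 0) ∧
    (∀ y ∈ M.inner, M.map y ∈ M.inner → ∃ γ : ℝ → E3, (∀ t ≤ (τ₀ : ℝ), γ t = y) ∧
      (∀ t ≥ (τ₁ : ℝ), γ t = M.map y) ∧ ∀ t, HasDerivAt γ (U (t, γ t)) t)

/-- The space divergence is additive on differentiable fields. -/
theorem spaceDiv_add_of_differentiable {U V : Field} (hU : Differentiable ℝ U)
    (hV : Differentiable ℝ V) (p : ℝ × (Fin 3 → ℝ)) :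
    spaceDiv (fun q => U q + V q) p = spaceDiv U p + spaceDiv V p := by
  unfold spaceDiv
  rw [← Finset.sum_add_distrib]
  refine Finset.sum_congr rfl fun j _ => ?_
  have h : fderiv ℝ (fun q => U q + V q) p = fderiv ℝ U p + fderiv ℝ V p :=
    fderiv_add (hU p) (hV p)
  rw [h]
  rfl

theorem spaceDiv_zero (p : ℝ × (Fin 3 → ℝ)) : spaceDiv (fun _ => (0 : Fin 3 → ℝ)) p = 0 := by
  unfold spaceDiv
  simp

/-- **Assembly.** A plan is realised by one field and explicit integral curves. -/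
theorem reach_field (hzero : EffS (fun _ => 0))
    (hadd : ∀ U V : Field, EffS U → EffS V → EffS (fun p => U p + V p))
    (hstage : ∀ (M : Move) (τ₀ τ₁ : ℚ), τ₀ < τ₁ → ∃ U, StageSpec M τ₀ τ₁ U)
    {n : ℕ} {O : Fin n → Set E3} {P Q : Fin n → E3 → E3} (hR : Reach O P Q) (τ₀ τ₁ : ℚ)
    (hτ : τ₀ < τ₁) :
    ∃ U : Field, EffS U ∧ HasCompactSupport U ∧ (∀ p, spaceDiv U p = 0) ∧
      (∀ p : ℝ × E3, p.1 ∉ Set.Ioo (τ₀ : ℝ) τ₁ → U p = 0) ∧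
      ∀ i, ∀ x ∈ O i, ∃ γ : ℝ → E3, (∀ t ≤ (τ₀ : ℝ), γ t = P i x) ∧
        (∀ t ≥ (τ₁ : ℝ), γ t = Q i x) ∧ ∀ t, HasDerivAt γ (U (t, γ t)) t := by
  induction hR generalizing τ₀ τ₁ with
  | refl P =>
    refine ⟨fun _ => 0, hzero, ?_, spaceDiv_zero, fun _ _ => rfl, ?_⟩
    · exact HasCompactSupport.intro isCompact_empty (fun _ _ => rfl)
    · intro i x _
      exact ⟨fun _ => P i x, fun _ _ => rfl, fun _ _ => rfl, fun t => hasDerivAt_const t (P i x)⟩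
  | step M P Q R h rest ih =>
    obtain ⟨τm, h0m, hm1⟩ : ∃ τm : ℚ, τ₀ < τm ∧ τm < τ₁ := exists_between hτ
    have h0m' : (τ₀ : ℝ) < τm := by exact_mod_cast h0m
    have hm1' : (τm : ℝ) < τ₁ := by exact_mod_cast hm1
    obtain ⟨U₁, hE₁, hc₁, hdiv₁, ht₁, hout₁, hin₁⟩ := hstage M τ₀ τm h0m
    obtain ⟨U₂, hE₂, hc₂, hdiv₂, ht₂, hcurve₂⟩ := ih τm τ₁ hm1
    have hd₁ : Differentiable ℝ U₁ := hE₁.1.differentiable (by simp)
    have hd₂ : Differentiable ℝ U₂ := hE₂.1.differentiable (by simp)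
    refine ⟨fun p => U₁ p + U₂ p, hadd U₁ U₂ hE₁ hE₂, hc₁.add hc₂, ?_, ?_, ?_⟩
    · intro p
      rw [spaceDiv_add_of_differentiable hd₁ hd₂, hdiv₁, hdiv₂, add_zero]
    · intro p hp
      have hp₁ : p.1 ∉ Set.Ioo (τ₀ : ℝ) τm := fun hmem => hp ⟨hmem.1, hmem.2.trans hm1'⟩
      have hp₂ : p.1 ∉ Set.Ioo (τm : ℝ) τ₁ := fun hmem => hp ⟨h0m'.trans hmem.1, hmem.2⟩
      simp only [ht₁ p hp₁, ht₂ p hp₂, add_zero]
    · intro i x hx
      -- the first leg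
      have leg₁ : ∃ γ₁ : ℝ → E3, (∀ t ≤ (τ₀ : ℝ), γ₁ t = P i x) ∧
          (∀ t ≥ (τm : ℝ), γ₁ t = Q i x) ∧ ∀ t, HasDerivAt γ₁ (U₁ (t, γ₁ t)) t := by
        rcases h i x hx with ⟨hPin, hmapin, hQ⟩ | ⟨hPout, hQ⟩
        · obtain ⟨γ₁, ha, hb, hd⟩ := hin₁ (P i x) hPin hmapin
          exact ⟨γ₁, ha, fun t ht => by rw [hb t ht, hQ], hd⟩
        · refine ⟨fun _ => P i x, fun _ _ => rfl, fun _ _ => hQ.symm, fun t => ?_⟩
          rw [hout₁ (P i x) hPout t]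
          exact hasDerivAt_const t (P i x)
      obtain ⟨γ₁, ha₁, hb₁, hd₁'⟩ := leg₁
      obtain ⟨γ₂, ha₂, hb₂, hd₂'⟩ := hcurve₂ i x hx
      refine ⟨fun t => γ₁ t + γ₂ t - Q i x, ?_, ?_, ?_⟩
      · intro t ht
        have : t ≤ (τm : ℝ) := ht.trans h0m'.le
        simp only [ha₁ t ht, ha₂ t this, add_sub_cancel_right]
      · intro t ht
        have : t ≥ (τm : ℝ) := hm1'.le.trans ht
        simp only [hb₁ t this, hb₂ t ht, add_sub_cancel_left]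
      · intro t
        have hder : HasDerivAt (fun t => γ₁ t + γ₂ t - Q i x)
            (U₁ (t, γ₁ t) + U₂ (t, γ₂ t)) t :=
          ((hd₁' t).add (hd₂' t)).sub_const (Q i x)
        have hval : U₁ (t, γ₁ t) + U₂ (t, γ₂ t) =
            U₁ (t, γ₁ t + γ₂ t - Q i x) + U₂ (t, γ₁ t + γ₂ t - Q i x) := by
          rcases le_total t (τm : ℝ) with hle | hge
          · have hz : ∀ y : E3, U₂ (t, y) = 0 := fun y =>
              ht₂ (t, y) (fun hmem => absurd hmem.1 (not_lt.2 hle))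
            rw [hz, hz, ha₂ t hle, add_sub_cancel_right]
          · have hz : ∀ y : E3, U₁ (t, y) = 0 := fun y =>
              ht₁ (t, y) (fun hmem => absurd hmem.2 (not_lt.2 hge))
            rw [hz, hz, hb₁ t hge, add_sub_cancel_left]
        show HasDerivAt (fun t => γ₁ t + γ₂ t - Q i x)
          (U₁ (t, γ₁ t + γ₂ t - Q i x) + U₂ (t, γ₁ t + γ₂ t - Q i x)) t
        rw [← hval]
        exact hder

/-- **S0170 from a plan and primitive stages.** -/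
theorem s0170_of (hzero : EffS (fun _ => 0))
    (hadd : ∀ U V : Field, EffS U → EffS V → EffS (fun p => U p + V p))
    (hstage : ∀ (M : Move) (τ₀ τ₁ : ℚ), τ₀ < τ₁ → ∃ U, StageSpec M τ₀ τ₁ U)
    (n : ℕ) (a b h k : Fin n → Fin 3 → ℚ)
    (hplan : ∃ O : Fin n → Set E3, (∀ i, IsOpen (O i)) ∧ (∀ i, box (a i) (h i) ⊆ O i) ∧
      Reach O (fun _ x => x)
        (fun i x j => (b i j : ℝ) + ((k i j / h i j : ℚ) : ℝ) * (x j - (a i j : ℝ)))) :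
    ∃ (U : Field) (Φ : ℝ → (Fin 3 → ℝ) → (Fin 3 → ℝ)),
      ContDiff ℝ ∞ U ∧ HasCompactSupport U ∧ Effective U ∧
      (∀ p : ℝ × (Fin 3 → ℝ), p.1 ∉ Set.Icc (1 / 4 : ℝ) (3 / 4) → U p = 0) ∧
      (∀ p : ℝ × (Fin 3 → ℝ), spaceDiv U p = 0) ∧ IsFlow U Φ ∧
      ∀ i : Fin n, ∃ O : Set (Fin 3 → ℝ), IsOpen O ∧ box (a i) (h i) ⊆ O ∧
        ∀ x ∈ O, Φ 1 x = fun j => (b i j : ℝ) + ((k i j / h i j : ℚ) : ℝ) * (x j - (a i j : ℝ)) := by
  obtain ⟨O, hOo, hOb, hR⟩ := hplan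
  obtain ⟨U, hE, hc, hdiv, ht, hcurve⟩ :=
    reach_field hzero hadd hstage hR (1 / 4) (3 / 4) (by norm_num)
  have e1 : ((1 / 4 : ℚ) : ℝ) = 1 / 4 := by norm_num
  have e3 : ((3 / 4 : ℚ) : ℝ) = 3 / 4 := by norm_num
  rw [e1, e3] at ht
  have ht' : ∀ p : ℝ × (Fin 3 → ℝ), p.1 ∉ Set.Icc (1 / 4 : ℝ) (3 / 4) → U p = 0 :=
    fun p hp => ht p (fun hmem => hp (Set.Ioo_subset_Icc_self hmem))
  obtain ⟨Φ, hΦ⟩ := Crest.Agent.Helper6.exists_isFlow U hE.1 hc ht'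
  refine ⟨U, Φ, hE.1, hc, hE.2, ht', hdiv, hΦ, fun i => ⟨O i, hOo i, hOb i, fun x hx => ?_⟩⟩
  obtain ⟨γ, ha, hb, hd⟩ := hcurve i x hx
  rw [e1] at ha
  rw [e3] at hb
  have h0 : γ 0 = Φ 0 x := by
    rw [ha 0 (by norm_num), hΦ.1 x]
  have h1 := Crest.Agent.Helper6.isFlow_eq_of_hasDerivAt hE.1 hc hΦ (γ := γ) (t₀ := 0) (t₁ := 1)
    (x := x) (fun t _ => hd t) h0 1 (by simp)
  rw [← h1, hb 1 (by norm_num)]

/-- **Bundling of the primitive stage.** helper6's stage field satisfies `StageSpec`, given its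
effectiveness. -/
theorem stage_exists_of
    (heff : ∀ (j l : Fin 3) (α κ c : ℚ) (lo hi : Fin 3 → ℚ) (δ τ₀ τ₁ : ℚ), 0 < δ →
      EffS (Crest.Agent.Helper6.stageField j l α κ c lo hi δ τ₀ τ₁))
    (M : Move) (τ₀ τ₁ : ℚ) (hτ : τ₀ < τ₁) : ∃ U, StageSpec M τ₀ τ₁ U := by
  obtain ⟨hc, hdiv, ht, hout, hin⟩ :=
    Crest.Agent.Helper6.stageField_spec (j := M.j) (l := M.l) (lo := M.lo) (hi := M.hi)
      (δ := M.δ) (τ₀ := τ₀) (τ₁ := τ₁) M.hjl M.α M.κ M.c M.hδ M.hlohi hτ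
  exact ⟨Crest.Agent.Helper6.stageField M.j M.l M.α M.κ M.c M.lo M.hi M.δ τ₀ τ₁,
    heff M.j M.l M.α M.κ M.c M.lo M.hi M.δ τ₀ τ₁ M.hδ, hc, hdiv, ht, hout, hin⟩

/-- **Primitive stages exist** (helper6's stage field, helper23's effectiveness proof). -/
theorem stage_exists (M : Move) (τ₀ τ₁ : ℚ) (hτ : τ₀ < τ₁) : ∃ U, StageSpec M τ₀ τ₁ U :=
  stage_exists_of Crest.Agent.Helper23.StageEff.stageField_effS' M τ₀ τ₁ hτ

/-- **Plans are realised by fields** (all analytic inputs plugged in). -/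
theorem reach_field' {n : ℕ} {O : Fin n → Set E3} {P Q : Fin n → E3 → E3} (hR : Reach O P Q)
    (τ₀ τ₁ : ℚ) (hτ : τ₀ < τ₁) :
    ∃ U : Field, EffS U ∧ HasCompactSupport U ∧ (∀ p, spaceDiv U p = 0) ∧
      (∀ p : ℝ × E3, p.1 ∉ Set.Ioo (τ₀ : ℝ) τ₁ → U p = 0) ∧
      ∀ i, ∀ x ∈ O i, ∃ γ : ℝ → E3, (∀ t ≤ (τ₀ : ℝ), γ t = P i x) ∧
        (∀ t ≥ (τ₁ : ℝ), γ t = Q i x) ∧ ∀ t, HasDerivAt γ (U (t, γ t)) t :=
  reach_field EffS.zero (fun _ _ hU hV => EffS.add Crest.Agent.Helper28.qComp hU hV)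
    stage_exists hR τ₀ τ₁ hτ

/-- **S0170 from a plan.** The only remaining input is the motion plan. -/
theorem s0170_of_plan (n : ℕ) (a b h k : Fin n → Fin 3 → ℚ)
    (hplan : ∃ O : Fin n → Set E3, (∀ i, IsOpen (O i)) ∧ (∀ i, box (a i) (h i) ⊆ O i) ∧
      Reach O (fun _ x => x)
        (fun i x j => (b i j : ℝ) + ((k i j / h i j : ℚ) : ℝ) * (x j - (a i j : ℝ)))) :
    ∃ (U : Field) (Φ : ℝ → (Fin 3 → ℝ) → (Fin 3 → ℝ)),
      ContDiff ℝ ∞ U ∧ HasCompactSupport U ∧ Effective U ∧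
      (∀ p : ℝ × (Fin 3 → ℝ), p.1 ∉ Set.Icc (1 / 4 : ℝ) (3 / 4) → U p = 0) ∧
      (∀ p : ℝ × (Fin 3 → ℝ), spaceDiv U p = 0) ∧ IsFlow U Φ ∧
      ∀ i : Fin n, ∃ O : Set (Fin 3 → ℝ), IsOpen O ∧ box (a i) (h i) ⊆ O ∧
        ∀ x ∈ O, Φ 1 x = fun j => (b i j : ℝ) + ((k i j / h i j : ℚ) : ℝ) * (x j - (a i j : ℝ)) :=
  s0170_of EffS.zero (fun _ _ hU hV => EffS.add Crest.Agent.Helper28.qComp hU hV)
    stage_exists n a b h k hplan

end Crest.Agent.Helper25
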